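import Vale.Agent.P123.Main

namespace Vale.Agent.Results.P123.Crouzeix

universe u

/-- The numerical range `W(A) = {⟨Ax, x⟩ : ‖x‖ = 1}`.  Mathlib's inner product is
conjugate-linear in the first slot, so `⟨Ax, x⟩` is `inner ℂ x (A x)`. -/
def numRange {H : Type u} [NormedAddCommGroup H] [InnerProductSpace ℂ H] (A : H →L[ℂ] H) :
    Set ℂ :=
  {z | ∃ x : H, ‖x‖ = 1 ∧ z = inner ℂ x (A x)}

theorem result :
    IsLeast {C : ℝ | ∀ (H : Type u) [NormedAddCommGroup H] [InnerProductSpace ℂ H]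
      [CompleteSpace H] [Nontrivial H] (A : H →L[ℂ] H) (P : Polynomial ℂ),
        ‖Polynomial.aeval A P‖ ≤ C * sSup ((fun z => ‖P.eval z‖) '' numRange A)} 2 := by
  constructor
  · intro H _ _ _ _ A P
    have hb : BddAbove ((fun z => ‖P.eval z‖) '' numRange A) := by
      refine ((isCompact_closedBall (0 : ℂ) ‖A‖).bddAbove_image
        (f := fun z => ‖P.eval z‖) P.continuous.norm.continuousOn).mono (Set.image_mono ?_)
      rintro z ⟨x, hx, rfl⟩
      simpa using Vale.Agent.P123.inner_bd A x hx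
    refine Vale.Agent.P123.general A P _ (Real.sSup_nonneg ?_) ?_
    · rintro _ ⟨z, -, rfl⟩
      exact norm_nonneg _
    · intro x hx
      exact le_csSup hb ⟨_, ⟨x, hx, rfl⟩, rfl⟩
  · intro C hC
    let H := EuclideanSpace ℂ (ULift.{u} (Fin 2))
    let e0 : H := EuclideanSpace.single ⟨0⟩ 1
    let e1 : H := EuclideanSpace.single ⟨1⟩ 1
    let A : H →L[ℂ] H := (innerSL ℂ e1).smulRight e0
    have h := hC H A Polynomial.X
    rw [Polynomial.aeval_X] at h
    have h1 : 1 ≤ ‖A‖ := by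
      have h0 : ‖e0‖ = 1 := by rw [EuclideanSpace.norm_single, norm_one]
      have h1 : ‖e1‖ = 1 := by rw [EuclideanSpace.norm_single, norm_one]
      simp [A, h0, h1]
    set s := sSup ((fun z => ‖(Polynomial.X : Polynomial ℂ).eval z‖) '' numRange A) with hs
    have h2 : 0 ≤ s := Real.sSup_nonneg (by rintro _ ⟨z, -, rfl⟩; exact norm_nonneg _)
    have h3 : s ≤ 1 / 2 := by
      refine Real.sSup_le ?_ (by norm_num)
      rintro _ ⟨z, ⟨x, hx, rfl⟩, rfl⟩
      have h4 : ‖x‖ ^ 2 = ‖x ⟨0⟩‖ ^ 2 + ‖x ⟨1⟩‖ ^ 2 := by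
        rw [EuclideanSpace.norm_sq_eq, ← Equiv.ulift.symm.sum_comp, Fin.sum_univ_two]
        rfl
      have h5 : ‖inner ℂ x (A x)‖ = ‖x ⟨0⟩‖ * ‖x ⟨1⟩‖ := by
        have h6 : inner ℂ x (A x) = inner ℂ e1 x * inner ℂ x e0 := by
          simp [A, inner_smul_right]
        rw [h6, EuclideanSpace.inner_single_left, EuclideanSpace.inner_single_right]
        simp [mul_comm]
      simp only [Polynomial.eval_X, h5]
      rw [hx] at h4
      nlinarith [sq_nonneg (‖x ⟨0⟩‖ - ‖x ⟨1⟩‖)]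
    by_contra hlt
    push Not at hlt
    rcases eq_or_lt_of_le h2 with h0 | h0
    · rw [← h0] at h; linarith
    · nlinarith

end Vale.Agent.Results.P123.Crouzeix
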